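import Mathlib
import Vale.Agent.Results.P262.PrefixLower

/-! Chobanyan's transference: a bound for signed prefix sums gives the same bound for
rearrangements of zero-sum families. -/

namespace Vale.Agent.P262

open Finset

variable {E : Type*} [NormedAddCommGroup E] [NormedSpace ℝ E]

/-- a prefix of a filtered list is a filtered prefix -/
lemma take_filter {α : Type*} (p : α → Bool) : ∀ (R : List α) (k : ℕ),
    ∃ j ≤ R.length, (R.filter p).take k = (R.take j).filter p := by
  intro R
  induction R with
  | nil => intro k; exact ⟨0, le_rfl, by simp⟩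
  | cons x R ih =>
    intro k
    by_cases hx : p x = true
    · cases k with
      | zero => exact ⟨0, Nat.zero_le _, by simp⟩
      | succ k =>
        obtain ⟨j, hj, h⟩ := ih k
        refine ⟨j + 1, by simpa using hj, ?_⟩
        rw [List.filter_cons_of_pos hx, List.take_succ_cons, List.take_succ_cons,
          List.filter_cons_of_pos hx, h]
    · obtain ⟨j, hj, h⟩ := ih k
      refine ⟨j + 1, by simpa using hj, ?_⟩
      rw [List.filter_cons_of_neg hx, List.take_succ_cons, List.filter_cons_of_neg hx, h]

/-- sums over the positive and negative parts of a signed list -/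
lemma sum_filter_signs {ι : Type*} (w : ι → E) (ε : ι → ℝ) (p : ι → Bool)
    (hp : ∀ i, (p i = true ∧ ε i = 1) ∨ (p i = false ∧ ε i = -1)) : ∀ A : List ι,
    ((A.filter p).map w).sum
        = (1 / 2 : ℝ) • ((A.map w).sum + (A.map (fun i => ε i • w i)).sum) ∧
    ((A.filter (fun i => !p i)).map w).sum
        = (1 / 2 : ℝ) • ((A.map w).sum - (A.map (fun i => ε i • w i)).sum) := by
  intro A
  induction A with
  | nil => simp
  | cons x A ih =>
    obtain ⟨ih1, ih2⟩ := ih
    rcases hp x with ⟨h1, h2⟩ | ⟨h1, h2⟩
    · constructor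
      · rw [List.filter_cons_of_pos h1]
        simp only [List.map_cons, List.sum_cons]
        rw [ih1, h2, one_smul]
        module
      · rw [List.filter_cons_of_neg (by simp [h1])]
        simp only [List.map_cons, List.sum_cons]
        rw [ih2, h2, one_smul]
        module
    · constructor
      · rw [List.filter_cons_of_neg (by simp [h1])]
        simp only [List.map_cons, List.sum_cons]
        rw [ih1, h2]
        module
      · rw [List.filter_cons_of_pos (by simp [h1])]
        simp only [List.map_cons, List.sum_cons]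
        rw [ih2, h2]
        module

/-- prefix sums of a list of indices versus sums over `Fin N` -/
lemma sum_take_eq {N : ℕ} (l : List (Fin N)) (hlen : l.length = N) (τ : Fin N → Fin N)
    (hτ : ∀ i : Fin N, τ i = l[i.val]'(by rw [hlen]; exact i.isLt)) (F : Fin N → E) (k : ℕ)
    (hk : k ≤ N) :
    ∑ i : Fin N with i.val < k, F (τ i) = ((l.take k).map F).sum := by
  set G : ℕ → E := fun a => (l.map F).getD a 0 with hG
  have h1 : ∑ i : Fin N with i.val < k, F (τ i) = ∑ i : Fin N with i.val < k, G i.val := by
    refine Finset.sum_congr rfl (fun i _ => ?_)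
    simp only [hG]
    rw [List.getD_eq_getElem _ _ (by rw [List.length_map, hlen]; exact i.isLt), List.getElem_map,
      hτ i]
  rw [h1, Vale.Agent.Results.P262.PrefixLower.fin_prefix N k hk G]
  clear h1
  induction k with
  | zero => simp
  | succ k ih =>
    rw [Finset.sum_range_succ, ih (by omega)]
    have hlt : k < (l.map F).length := by rw [List.length_map, hlen]; omega
    rw [List.map_take, List.map_take, List.sum_take_succ (l.map F) k hlt]
    congr 1
    simp only [hG]
    rw [List.getD_eq_getElem _ _ hlt]

/-- a rearranged list of all indices comes from a permutation -/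
lemma exists_perm_of_list {N : ℕ} (l : List (Fin N)) (hl : l.Perm (List.finRange N)) :
    ∃ (τ : Equiv.Perm (Fin N)) (hlen : l.length = N),
      ∀ i : Fin N, τ i = l[i.val]'(by rw [hlen]; exact i.isLt) := by
  have hnd : l.Nodup := hl.nodup_iff.mpr (List.nodup_finRange N)
  have hmem : ∀ x, x ∈ l := fun x => hl.mem_iff.mpr (List.mem_finRange x)
  have hlen : l.length = N := by rw [hl.length_eq, List.length_finRange]
  refine ⟨(finCongr hlen.symm).trans (List.Nodup.getEquivOfForallMemList l hnd hmem), hlen, ?_⟩
  intro i
  simp [List.Nodup.getEquivOfForallMemList]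

theorem chobanyan (C : ℝ) (N : ℕ) (v : Fin N → E) (hsum : ∑ i, v i = 0)
    (hs : ∀ π : Equiv.Perm (Fin N), ∃ ε : Fin N → ℝ, (∀ i, ε i = 1 ∨ ε i = -1) ∧
      ∀ k ≤ N, ‖∑ i : Fin N with i.val < k, ε i • v (π i)‖ ≤ C) :
    ∃ π : Equiv.Perm (Fin N), ∀ k ≤ N, ‖∑ i : Fin N with i.val < k, v (π i)‖ ≤ C := by
  classical
  set f : Equiv.Perm (Fin N) → ℝ := fun π =>
    (range (N + 1)).sup' ⟨0, by simp⟩ (fun k => ‖∑ i : Fin N with i.val < k, v (π i)‖) with hf
  obtain ⟨π0, hmin⟩ := Finite.exists_min f
  set M := f π0 with hMdef
  have hM : ∀ k ≤ N, ‖∑ i : Fin N with i.val < k, v (π0 i)‖ ≤ M := by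
    intro k hk
    exact Finset.le_sup' (fun k => ‖∑ i : Fin N with i.val < k, v (π0 i)‖)
      (Finset.mem_range.2 (by omega))
  obtain ⟨ε, hε, hC⟩ := hs π0
  set w : Fin N → E := fun i => v (π0 i) with hw
  set p : Fin N → Bool := fun i => decide (ε i = 1) with hp
  have hp' : ∀ i, (p i = true ∧ ε i = 1) ∨ (p i = false ∧ ε i = -1) := by
    intro i
    rcases hε i with h | h
    · left; exact ⟨by simp [hp, h], h⟩
    · right
      refine ⟨?_, h⟩
      simp only [hp, h]
      norm_num
  set R := List.finRange N with hR
  have hRlen : R.length = N := List.length_finRange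
  have hRsum : ∀ (F : Fin N → E) (j : ℕ), j ≤ N →
      ((R.take j).map F).sum = ∑ i : Fin N with i.val < j, F i := by
    intro F j hj
    rw [← sum_take_eq R hRlen id (fun i => by simp [hR]) F j hj]
    rfl
  set pos := R.filter p with hpos
  set neg := R.filter (fun i => !p i) with hneg
  set l' := pos ++ neg.reverse with hl'
  have hperm : l'.Perm R :=
    (List.Perm.append_left _ (List.reverse_perm _)).trans (List.filter_append_perm p R)
  obtain ⟨τ, hlen, hτ⟩ := exists_perm_of_list l' hperm
  have hS : ∀ j ≤ N, ‖((R.take j).map w).sum‖ ≤ M := by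
    intro j hj
    rw [hRsum w j hj]
    exact hM j hj
  have hE : ∀ j ≤ N, ‖((R.take j).map (fun i => ε i • w i)).sum‖ ≤ C := by
    intro j hj
    rw [hRsum _ j hj]
    exact hC j hj
  have htot : (pos.map w).sum + (neg.map w).sum = 0 := by
    obtain ⟨h1, h2⟩ := sum_filter_signs w ε p hp' R
    rw [hpos, hneg, h1, h2]
    have h3 : (R.map w).sum = 0 := by
      rw [hR, ← Fin.sum_univ_def, hw, Equiv.sum_comp π0 v, hsum]
    rw [h3]
    module
  have key : ∀ k ≤ N, ‖∑ i : Fin N with i.val < k, w (τ i)‖ ≤ (M + C) / 2 := by
    intro k hk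
    rw [sum_take_eq l' hlen τ hτ w k hk, hl', List.take_append]
    rcases Nat.le_total k pos.length with hkp | hkp
    · rw [Nat.sub_eq_zero_of_le hkp, List.take_zero, List.append_nil]
      obtain ⟨j, hj, h⟩ := take_filter p R k
      rw [hRlen] at hj
      rw [hpos, h, (sum_filter_signs w ε p hp' (R.take j)).1, norm_smul]
      have := norm_add_le ((R.take j).map w).sum ((R.take j).map (fun i => ε i • w i)).sum
      have h1 := hS j hj
      have h2 := hE j hj
      rw [Real.norm_eq_abs, abs_of_pos (by norm_num : (0 : ℝ) < 1 / 2)]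
      linarith
    · rw [List.take_of_length_le hkp, List.take_reverse, List.map_append, List.sum_append,
        List.map_reverse, List.sum_reverse]
      set t := neg.length - (k - pos.length) with ht
      have h3 := List.sum_take_add_sum_drop (neg.map w) t
      rw [← List.map_take, ← List.map_drop] at h3
      obtain ⟨j, hj, h⟩ := take_filter (fun i => !p i) R t
      rw [hRlen] at hj
      have h4 : (pos.map w).sum + ((neg.drop t).map w).sum = - ((neg.take t).map w).sum := by
        have : ((neg.drop t).map w).sum = (neg.map w).sum - ((neg.take t).map w).sum := by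
          rw [← h3]; abel
        rw [this, ← add_sub_assoc, htot, zero_sub]
      rw [h4, norm_neg, hneg, h, (sum_filter_signs w ε p hp' (R.take j)).2, norm_smul]
      have := norm_sub_le ((R.take j).map w).sum ((R.take j).map (fun i => ε i • w i)).sum
      have h1 := hS j hj
      have h2 := hE j hj
      rw [Real.norm_eq_abs, abs_of_pos (by norm_num : (0 : ℝ) < 1 / 2)]
      linarith
  have hle : f (π0 * τ) ≤ (M + C) / 2 := by
    apply Finset.sup'_le
    intro k hk
    exact key k (by have := Finset.mem_range.1 hk; omega)
  have hMC : M ≤ C := by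
    have := hmin (π0 * τ)
    linarith
  exact ⟨π0, fun k hk => (hM k hk).trans hMC⟩

end Vale.Agent.P262
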