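import Vale.Agent.P262.Reduce

/-! Signing a sequence of vectors by keeping at most `d` pending vectors of the unit ball. -/

open Finset

namespace Vale.Agent.P262

variable {V : Type*} [NormedAddCommGroup V] [InnerProductSpace ℝ V]

/-- signed prefix sum -/
def P (v : ℕ → V) (ε : ℕ → ℝ) (k : ℕ) : V := ∑ i ∈ range k, ε i • v i

/-- `p` is the `k`-th prefix sum of a signing all of whose prefix sums up to `k` have squared norm
at most `C` -/
def Good (C : ℝ) (v : ℕ → V) (k : ℕ) (p : V) : Prop :=
  ∃ ε : ℕ → ℝ, (∀ i, ε i = 1 ∨ ε i = -1) ∧ P v ε k = p ∧ ∀ j ≤ k, ‖P v ε j‖ ^ 2 ≤ C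

lemma Good.step {C : ℝ} {v : ℕ → V} {k : ℕ} {q : V}
    (h : Good C v k q) (σ : ℝ) (hσ : σ = 1 ∨ σ = -1) (hn : ‖q + σ • v k‖ ^ 2 ≤ C) :
    Good C v (k + 1) (q + σ • v k) := by
  obtain ⟨ε, hε, hP, hb⟩ := h
  have hsame : ∀ j ≤ k, P v (Function.update ε k σ) j = P v ε j := by
    intro j hj
    unfold P
    apply Finset.sum_congr rfl
    intro i hi
    have : i ≠ k := by
      have := Finset.mem_range.mp hi
      omega
    rw [Function.update_of_ne this]
  have hlast : P v (Function.update ε k σ) (k + 1) = q + σ • v k := by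
    have h1 : P v (Function.update ε k σ) (k + 1)
        = P v (Function.update ε k σ) k + (Function.update ε k σ) k • v k := by
      unfold P
      rw [Finset.sum_range_succ]
    rw [h1, hsame k le_rfl, hP, Function.update_self]
  refine ⟨Function.update ε k σ, ?_, hlast, ?_⟩
  · intro i
    by_cases hi : i = k
    · subst hi
      rw [Function.update_self]
      exact hσ
    · rw [Function.update_of_ne hi]
      exact hε i
  · intro j hj
    rcases Nat.lt_or_ge j (k + 1) with h | h
    · rw [hsame j (by omega)]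
      exact hb j (by omega)
    · have : j = k + 1 := by omega
      subst this
      rw [hlast]
      exact hn

/-- conditional goodness of all signed sums of a family -/
def CG (C : ℝ) (v : ℕ → V) (k : ℕ) {n : ℕ} (p : Fin n → V) : Prop :=
  ∀ η : Fin n → ℝ, (∀ j, η j = 1 ∨ η j = -1) → ‖∑ j, η j • p j‖ ^ 2 ≤ C →
    Good C v k (∑ j, η j • p j)

lemma CG.merge {C : ℝ} {v : ℕ → V} {k n : ℕ} {p : Fin n → V} (h : CG C v k p)
    (ε : Fin n → ℝ) (hε : ∀ j, ε j = 1 ∨ ε j = -1 ∨ ε j = 0) (j0 : Fin n) (hj0 : ε j0 ≠ 0) :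
    CG C v k (fun j => if j = j0 then ∑ i, ε i • p i else if ε j ≠ 0 then 0 else p j) := by
  intro η' hη' hn
  set η : Fin n → ℝ := fun j => if ε j ≠ 0 then η' j0 * ε j else η' j with hη
  have hηs : ∀ j, η j = 1 ∨ η j = -1 := by
    intro j
    simp only [hη]
    split_ifs with h0
    · rcases hε j with h1 | h1 | h1
      · rw [h1, mul_one]; exact hη' j0
      · rw [h1]
        rcases hη' j0 with h2 | h2 <;> rw [h2] <;> norm_num
      · exact absurd h1 h0
    · exact hη' j
  have key : ∑ j, η' j • (if j = j0 then ∑ i, ε i • p i else if ε j ≠ 0 then 0 else p j)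
      = ∑ j, η j • p j := by
    have e1 : ∀ j, η' j • (if j = j0 then ∑ i, ε i • p i else if ε j ≠ 0 then 0 else p j)
        = (if j = j0 then η' j0 • ∑ i, ε i • p i else 0)
          + (if ε j ≠ 0 then 0 else η' j • p j) := by
      intro j
      by_cases h1 : j = j0
      · subst h1
        simp [hj0]
      · by_cases h2 : ε j ≠ 0
        · simp [h1, h2]
        · simp [h1, h2]
    have e2 : ∀ j, η j • p j = (η' j0 * ε j) • p j + (if ε j ≠ 0 then 0 else η' j • p j) := by
      intro j
      simp only [hη]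
      by_cases h2 : ε j ≠ 0
      · simp [h2]
      · have : ε j = 0 := not_not.1 h2
        simp [this]
    simp only [e1, e2]
    rw [Finset.sum_add_distrib, Finset.sum_add_distrib, Finset.sum_ite_eq' univ j0]
    simp only [mem_univ, if_true]
    congr 1
    rw [Finset.smul_sum]
    exact Finset.sum_congr rfl (fun j _ => by rw [smul_smul])
  rw [key] at hn ⊢
  exact h η hηs hn

/-- all signed sums of a family without mergeable pairs are short -/
lemma irreducible_bound {d : ℕ} (p : Fin (d + 1) → V) (hp : ∀ j, ‖p j‖ ≤ 1) (j1 : Fin (d + 1))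
    (hj1 : p j1 = 0)
    (hirr : ∀ i j, i ≠ j → p i ≠ 0 → p j ≠ 0 → ∀ s : ℝ, (s = 1 ∨ s = -1) → 1 < ‖p i + s • p j‖)
    (η : Fin (d + 1) → ℝ) (hη : ∀ j, η j = 1 ∨ η j = -1) :
    ‖∑ j, η j • p j‖ ^ 2 ≤ (d : ℝ) * (d + 1) / 2 := by
  classical
  set y : Fin (d + 1) → ℝ := fun j => if p j = 0 then 0 else 1 with hy
  have hy01 : ∀ j, y j = 0 ∨ y j = 1 := by
    intro j
    simp only [hy]
    split_ifs
    · exact Or.inl rfl
    · exact Or.inr rfl
  have hη2 : ∀ j, η j * η j = 1 := by
    intro j
    rcases hη j with h | h <;> rw [h] <;> norm_num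
  have hexp : ‖∑ j, η j • p j‖ ^ 2 = ∑ i, ∑ j, η i * η j * inner ℝ (p i) (p j) := by
    rw [← real_inner_self_eq_norm_sq, sum_inner]
    refine Finset.sum_congr rfl (fun i _ => ?_)
    rw [inner_sum]
    refine Finset.sum_congr rfl (fun j _ => ?_)
    rw [real_inner_smul_left, real_inner_smul_right]
    ring
  have hterm : ∀ i j, η i * η j * inner ℝ (p i) (p j)
      ≤ y i * y j / 2 + (if i = j then y i / 2 else 0) := by
    intro i j
    by_cases hij : i = j
    · subst hij
      rw [hη2, one_mul, real_inner_self_eq_norm_sq, if_pos rfl]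
      simp only [hy]
      split_ifs with h0
      · rw [h0]; simp
      · have := hp i
        have := norm_nonneg (p i)
        nlinarith
    · rw [if_neg hij, add_zero]
      by_cases hi : p i = 0
      · simp [hy, hi]
      · by_cases hj : p j = 0
        · simp [hy, hj]
        · have hs : (-(η i * η j)) = 1 ∨ (-(η i * η j)) = -1 := by
            rcases hη i with h1 | h1 <;> rcases hη j with h2 | h2 <;> rw [h1, h2] <;> norm_num
          have h1 := hirr i j hij hi hj _ hs
          have h2 : 1 < ‖p i + (-(η i * η j)) • p j‖ ^ 2 := by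
            have := norm_nonneg (p i + (-(η i * η j)) • p j)
            nlinarith
          rw [norm_add_sq_real, real_inner_smul_right, norm_smul] at h2
          have h3 : ‖(-(η i * η j))‖ = 1 := by
            rcases hs with h | h <;> rw [h] <;> simp
          rw [h3, one_mul] at h2
          have h4 := hp i
          have h5 := hp j
          have h6 := norm_nonneg (p i)
          have h7 := norm_nonneg (p j)
          simp only [hy, hi, hj, if_false]
          nlinarith
  set m : ℝ := ∑ j, y j with hm
  have hm0 : 0 ≤ m := Finset.sum_nonneg (fun j _ => by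
    rcases hy01 j with h | h <;> rw [h] <;> norm_num)
  have hmd : m ≤ d := by
    have h1 : m ≤ ∑ j : Fin (d + 1), (1 - if j = j1 then (1 : ℝ) else 0) := by
      apply Finset.sum_le_sum
      intro j _
      by_cases h : j = j1
      · subst h
        simp [hy, hj1]
      · rw [if_neg h]
        rcases hy01 j with h | h <;> rw [h] <;> norm_num
    rw [Finset.sum_sub_distrib, Finset.sum_ite_eq' univ j1] at h1
    simp at h1
    linarith
  have htot : ∑ i, ∑ j, (y i * y j / 2 + (if i = j then y i / 2 else 0)) = m ^ 2 / 2 + m / 2 := by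
    have : ∀ i, ∑ j, (y i * y j / 2 + (if i = j then y i / 2 else 0)) = y i * m / 2 + y i / 2 := by
      intro i
      rw [Finset.sum_add_distrib, Finset.sum_ite_eq univ i]
      simp only [mem_univ, if_true]
      congr 1
      rw [hm, Finset.mul_sum, Finset.sum_div]
    simp only [this]
    rw [Finset.sum_add_distrib, ← Finset.sum_div, ← Finset.sum_div, ← Finset.sum_mul]
    ring
  rw [hexp]
  calc ∑ i, ∑ j, η i * η j * inner ℝ (p i) (p j)
      ≤ ∑ i, ∑ j, (y i * y j / 2 + (if i = j then y i / 2 else 0)) :=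
        Finset.sum_le_sum (fun i _ => Finset.sum_le_sum (fun j _ => hterm i j))
    _ = m ^ 2 / 2 + m / 2 := htot
    _ ≤ (d : ℝ) * (d + 1) / 2 := by nlinarith

end Vale.Agent.P262
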