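import Mathlib

/-! Among `d + 1` vectors of the unit ball of `ℝ^d`, `d ≤ 4`, some signed sum of at least two of
them lies in the unit ball. -/

open Finset

namespace Vale.Agent.P262

lemma avg_pick {ι : Type*} (S : Finset ι) (b t : ι → ℝ) (hb : ∀ j ∈ S, 0 ≤ b j)
    (hsum : ∑ j ∈ S, b j ≤ 2) (n2 : ℝ) (hn : 0 < n2) (h : ∑ j ∈ S, b j * t j = n2) :
    ∃ i ∈ S, n2 ≤ 2 * t i := by
  by_contra hcon
  push Not at hcon
  have h1 : ∑ j ∈ S, b j * (n2 - 2 * t j) = (∑ j ∈ S, b j) * n2 - 2 * n2 := by
    rw [← h, Finset.sum_mul, Finset.mul_sum, ← Finset.sum_sub_distrib]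
    exact Finset.sum_congr rfl (fun j _ => by ring)
  have h2 : ∑ j ∈ S, b j * (n2 - 2 * t j) ≤ 0 := by
    rw [h1]; nlinarith
  have h3 : ∀ j ∈ S, 0 ≤ b j * (n2 - 2 * t j) := fun j hj =>
    mul_nonneg (hb j hj) (by linarith [hcon j hj])
  have h4 : ∑ j ∈ S, b j * (n2 - 2 * t j) = 0 := le_antisymm h2 (Finset.sum_nonneg h3)
  have h5 := (Finset.sum_eq_zero_iff_of_nonneg h3).1 h4
  have h6 : ∀ j ∈ S, b j = 0 := by
    intro j hj
    rcases mul_eq_zero.1 (h5 j hj) with h | h
    · exact h
    · linarith [hcon j hj]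
  have h7 : ∑ j ∈ S, b j * t j = 0 :=
    Finset.sum_eq_zero (fun j hj => by rw [h6 j hj, zero_mul])
  linarith

/-- picking a vector close to a weighted sum -/
lemma pick_vec {ι V : Type*} [NormedAddCommGroup V] [InnerProductSpace ℝ V] (S : Finset ι)
    (hS : S.Nonempty) (b : ι → ℝ) (q : ι → V) (hb : ∀ j ∈ S, 0 ≤ b j)
    (hsum : ∑ j ∈ S, b j ≤ 2) (hq : ∀ j ∈ S, ‖q j‖ ≤ 1) :
    ∃ i ∈ S, ‖(∑ j ∈ S, b j • q j) - q i‖ ≤ 1 := by
  set u : V := ∑ j ∈ S, b j • q j with hu
  have hexp : ∀ i, ‖u - q i‖ ^ 2 = ‖u‖ ^ 2 - 2 * inner ℝ (q i) u + ‖q i‖ ^ 2 := by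
    intro i
    rw [norm_sub_sq_real, real_inner_comm]
  have hfin : ∀ i ∈ S, ‖u‖ ^ 2 ≤ 2 * inner ℝ (q i) u → ‖u - q i‖ ≤ 1 := by
    intro i hi h
    have h1 := hexp i
    have h2 := hq i hi
    have h3 := norm_nonneg (q i)
    have h4 : ‖u - q i‖ ^ 2 ≤ 1 := by nlinarith
    have h5 := norm_nonneg (u - q i)
    nlinarith
  rcases (sq_nonneg ‖u‖).eq_or_lt with h0 | hpos
  · obtain ⟨i, hi⟩ := hS
    refine ⟨i, hi, hfin i hi ?_⟩
    have : u = 0 := by
      have : ‖u‖ = 0 := by
        have := h0.symm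
        exact pow_eq_zero_iff (two_ne_zero) |>.1 this
      exact norm_eq_zero.1 this
    rw [this]
    simp
  · have hsumid : ∑ j ∈ S, b j * inner ℝ (q j) u = ‖u‖ ^ 2 := by
      rw [← real_inner_self_eq_norm_sq u]
      conv_rhs => rw [hu, sum_inner]
      refine Finset.sum_congr rfl (fun j _ => ?_)
      rw [real_inner_smul_left]
    obtain ⟨i, hi, h⟩ := avg_pick S b (fun j => inner ℝ (q j) u) hb hsum _ hpos hsumid
    exact ⟨i, hi, hfin i hi h⟩

/-- Among `d + 1` vectors of the unit ball of `ℝ^d`, `1 ≤ d ≤ 4`, some signed sum of at least two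
of them lies in the unit ball. -/
lemma reducible (d : ℕ) (hd1 : 1 ≤ d) (hd : d ≤ 4) (p : Fin (d + 1) → EuclideanSpace ℝ (Fin d))
    (hp : ∀ j, ‖p j‖ ≤ 1) :
    ∃ ε : Fin (d + 1) → ℝ, (∀ j, ε j = 1 ∨ ε j = -1 ∨ ε j = 0) ∧
      (∃ j0 j1, j0 ≠ j1 ∧ ε j0 ≠ 0 ∧ ε j1 ≠ 0) ∧ ‖∑ j, ε j • p j‖ ≤ 1 := by
  classical
  have hdep : ¬ LinearIndependent ℝ p := by
    intro hli
    have := hli.fintype_card_le_finrank
    rw [finrank_euclideanSpace_fin, Fintype.card_fin] at this
    omega
  obtain ⟨g, hg, i0, hi0⟩ := Fintype.not_linearIndependent_iff.1 hdep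
  obtain ⟨j0, _, hj0⟩ := Finset.exists_max_image univ (fun j => |g j|) ⟨i0, mem_univ _⟩
  have hG : g j0 ≠ 0 := by
    intro h
    have := hj0 i0 (mem_univ _)
    rw [h, abs_zero] at this
    exact hi0 (abs_nonpos_iff.1 this)
  set c : Fin (d + 1) → ℝ := fun j => g j / g j0 with hc
  have hc0 : c j0 = 1 := by simp only [hc]; exact div_self hG
  have hc1 : ∀ j, |c j| ≤ 1 := by
    intro j
    simp only [hc]
    rw [abs_div, div_le_one (abs_pos.2 hG)]
    exact hj0 j (mem_univ _)
  have hcsum : ∑ j, c j • p j = 0 := by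
    have : ∑ j, c j • p j = (g j0)⁻¹ • ∑ j, g j • p j := by
      rw [Finset.smul_sum]
      refine Finset.sum_congr rfl (fun j _ => ?_)
      rw [smul_smul]
      congr 1
      simp only [hc]
      field_simp
    rw [this, hg, smul_zero]
  set s : Fin (d + 1) → ℝ := fun j => if 0 ≤ c j then 1 else -1 with hs
  have hs1 : ∀ j, s j = 1 ∨ s j = -1 := by
    intro j
    simp only [hs]
    split_ifs
    · exact Or.inl rfl
    · exact Or.inr rfl
  have hsc : ∀ j, |c j| * s j = c j := by
    intro j
    simp only [hs]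
    split_ifs with h
    · rw [abs_of_nonneg h, mul_one]
    · rw [abs_of_neg (not_le.1 h)]; ring
  have hs0 : s j0 = 1 := by simp only [hs, hc0]; norm_num
  have hsne : ∀ j, s j ≠ 0 := by
    intro j
    rcases hs1 j with h | h <;> rw [h] <;> norm_num
  set S : Finset (Fin (d + 1)) := univ.erase j0 with hS
  have hScard : S.card = d := by
    rw [hS, Finset.card_erase_of_mem (mem_univ _), Finset.card_univ, Fintype.card_fin]
    omega
  have hSne : S.Nonempty := by
    rw [← Finset.card_pos, hScard]; omega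
  have hq : ∀ j ∈ S, ‖s j • p j‖ ≤ 1 := by
    intro j _
    rw [norm_smul]
    rcases hs1 j with h | h <;> rw [h] <;> simpa using hp j
  have hsplit : ∀ f : Fin (d + 1) → EuclideanSpace ℝ (Fin d),
      ∑ j, f j = f j0 + ∑ j ∈ S, f j := fun f =>
    (Finset.add_sum_erase univ f (mem_univ j0)).symm
  have hrel : p j0 = - ∑ j ∈ S, c j • p j := by
    have := hsplit (fun j => c j • p j)
    rw [hcsum] at this
    simp only [hc0, one_smul] at this
    exact eq_neg_of_add_eq_zero_left this.symm
  rcases le_or_gt (∑ j ∈ S, |c j|) 2 with hA | hA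
  · obtain ⟨i, hi, hn⟩ := pick_vec S hSne (fun j => |c j|) (fun j => s j • p j)
      (fun j _ => abs_nonneg _) hA hq
    have hij : i ≠ j0 := Finset.ne_of_mem_erase hi
    have hu : ∑ j ∈ S, |c j| • s j • p j = - p j0 := by
      rw [hrel, neg_neg]
      refine Finset.sum_congr rfl (fun j _ => ?_)
      rw [smul_smul, hsc]
    rw [hu] at hn
    refine ⟨fun j => if j = j0 then 1 else if j = i then s i else 0, ?_, ⟨j0, i, hij.symm, ?_, ?_⟩,
      ?_⟩
    · intro j
      by_cases h1 : j = j0
      · simp [h1]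
      · by_cases h2 : j = i
        · simp only [h2, if_false, if_true, hij]
          rcases hs1 i with h | h
          · exact Or.inl h
          · exact Or.inr (Or.inl h)
        · simp [h1, h2]
    · simp
    · simp only [hij, if_false, if_true]
      exact hsne i
    · have hsum : ∑ j, (if j = j0 then (1 : ℝ) else if j = i then s i else 0) • p j
          = p j0 + s i • p i := by
        rw [hsplit]
        simp only [if_true, one_smul]
        congr 1
        rw [Finset.sum_eq_single_of_mem i hi]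
        · simp [hij]
        · intro j hj hji
          have : j ≠ j0 := Finset.ne_of_mem_erase hj
          simp [this, hji]
      rw [hsum]
      have : p j0 + s i • p i = - (- p j0 - s i • p i) := by abel
      rw [this, norm_neg]
      exact hn
  · have hB : ∑ j ∈ S, (1 - |c j|) ≤ 2 := by
      rw [Finset.sum_sub_distrib, Finset.sum_const, hScard]
      simp only [nsmul_eq_mul, mul_one]
      have : (d : ℝ) ≤ 4 := by exact_mod_cast hd
      linarith
    have hd3 : 3 ≤ d := by
      have h1 : ∑ j ∈ S, |c j| ≤ ∑ j ∈ S, (1 : ℝ) := Finset.sum_le_sum (fun j _ => hc1 j)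
      rw [Finset.sum_const, hScard] at h1
      simp only [nsmul_eq_mul, mul_one] at h1
      have : (2 : ℝ) < d := lt_of_lt_of_le hA h1
      have : 2 < d := by exact_mod_cast this
      omega
    obtain ⟨i, hi, hn⟩ := pick_vec S hSne (fun j => 1 - |c j|) (fun j => s j • p j)
      (fun j _ => sub_nonneg.2 (hc1 j)) hB hq
    have hij : i ≠ j0 := Finset.ne_of_mem_erase hi
    have hu : ∑ j ∈ S, (1 - |c j|) • s j • p j = ∑ j, s j • p j := by
      rw [hsplit (fun j => s j • p j), hs0, one_smul, hrel, ← Finset.sum_neg_distrib,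
        ← Finset.sum_add_distrib]
      refine Finset.sum_congr rfl (fun j _ => ?_)
      rw [sub_smul, one_smul, smul_smul, hsc]
      abel
    rw [hu] at hn
    -- a third index
    have hex : ∃ j1, j1 ≠ i ∧ j1 ≠ j0 := by
      by_contra hcon
      push Not at hcon
      have hsub : (univ : Finset (Fin (d + 1))) ⊆ {i, j0} := by
        intro j _
        by_cases h : j = i
        · simp [h]
        · simp [hcon j h]
      have := Finset.card_le_card hsub
      rw [Finset.card_univ, Fintype.card_fin] at this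
      have h2 : ({i, j0} : Finset (Fin (d + 1))).card ≤ 2 := Finset.card_le_two
      omega
    obtain ⟨j1, hj1i, hj1j⟩ := hex
    refine ⟨fun j => if j = i then 0 else s j, ?_, ⟨j0, j1, hj1j.symm, ?_, ?_⟩, ?_⟩
    · intro j
      by_cases h1 : j = i
      · simp [h1]
      · simp only [h1, if_false]
        rcases hs1 j with h | h
        · exact Or.inl h
        · exact Or.inr (Or.inl h)
    · simp only [hij.symm, if_false]
      exact hsne j0
    · simp only [hj1i, if_false]
      exact hsne j1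
    · have hsum : ∑ j, (if j = i then (0 : ℝ) else s j) • p j = ∑ j, s j • p j - s i • p i := by
        rw [eq_sub_iff_add_eq, ← Finset.add_sum_erase univ (fun j => s j • p j) (mem_univ i),
          ← Finset.add_sum_erase univ (fun j => (if j = i then (0 : ℝ) else s j) • p j)
            (mem_univ i)]
        simp only [if_true, zero_smul, zero_add]
        rw [add_comm]
        congr 1
        refine Finset.sum_congr rfl (fun j hj => ?_)
        simp [Finset.ne_of_mem_erase hj]
      rw [hsum]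
      exact hn

end Vale.Agent.P262
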