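import Vale.Agent.P262.Merge

/-! The pending-vector scheme: state, clean-up and one step. -/

open Finset

namespace Vale.Agent.P262

variable {V : Type*} [NormedAddCommGroup V] [InnerProductSpace ℝ V]

/-- the invariant: at most `d` pending vectors of the unit ball, all of whose signed sums are
prefix sums of admissible signings -/
def State (d : ℕ) (v : ℕ → V) (k : ℕ) : Prop :=
  ∃ p : Fin (d + 1) → V, (∀ j, ‖p j‖ ≤ 1) ∧ (∃ j1, p j1 = 0) ∧
    ∀ η : Fin (d + 1) → ℝ, (∀ j, η j = 1 ∨ η j = -1) →
      Good ((d : ℝ) * (d + 1) / 2) v k (∑ j, η j • p j)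

open scoped Classical in
lemma finish (d : ℕ) (v : ℕ → V) (k : ℕ) : ∀ (N : ℕ) (p : Fin (d + 1) → V),
    (univ.filter (fun j => p j ≠ 0)).card ≤ N → (∀ j, ‖p j‖ ≤ 1) → (∃ j1, p j1 = 0) →
    CG ((d : ℝ) * (d + 1) / 2) v k p → State d v k := by
  intro N
  induction N with
  | zero =>
    intro p hc hp hz hcg
    obtain ⟨j1, hj1⟩ := hz
    have hall : ∀ j, p j = 0 := by
      intro j
      by_contra hne
      have : j ∈ univ.filter (fun j => p j ≠ 0) := by simp [hne]
      have := Finset.card_pos.mpr ⟨j, this⟩
      omega
    refine ⟨p, hp, ⟨j1, hj1⟩, ?_⟩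
    intro η hη
    apply hcg η hη
    exact irreducible_bound p hp j1 hj1 (fun i j _ hi _ => absurd (hall i) hi) η hη
  | succ N ih =>
    intro p hc hp hz hcg
    obtain ⟨j1, hj1⟩ := hz
    by_cases hirr : ∀ i j, i ≠ j → p i ≠ 0 → p j ≠ 0 → ∀ s : ℝ, (s = 1 ∨ s = -1) →
        1 < ‖p i + s • p j‖
    · refine ⟨p, hp, ⟨j1, hj1⟩, ?_⟩
      intro η hη
      apply hcg η hη
      exact irreducible_bound p hp j1 hj1 hirr η hη
    · push Not at hirr
      obtain ⟨i, j, hij, hi, hj, s, hs, hle⟩ := hirr
      set ε : Fin (d + 1) → ℝ := fun l => if l = i then 1 else if l = j then s else 0 with hε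
      have hs0 : s ≠ 0 := by
        rcases hs with h | h <;> rw [h] <;> norm_num
      have hεs : ∀ l, ε l = 1 ∨ ε l = -1 ∨ ε l = 0 := by
        intro l
        simp only [hε]
        split_ifs
        · exact Or.inl rfl
        · rcases hs with h | h
          · exact Or.inl h
          · exact Or.inr (Or.inl h)
        · exact Or.inr (Or.inr rfl)
      have hεi : ε i ≠ 0 := by simp [hε]
      have hεj : ε j ≠ 0 := by
        have : ε j = s := by
          simp only [hε]
          rw [if_neg (Ne.symm hij)]
          simp
        rw [this]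
        exact hs0
      have hsum : ∑ l, ε l • p l = p i + s • p j := by
        have e : ∀ l, ε l • p l = (if l = i then p i else 0) + (if l = j then s • p j else 0) := by
          intro l
          simp only [hε]
          by_cases h1 : l = i
          · subst h1
            simp [hij]
          · by_cases h2 : l = j
            · subst h2
              simp [h1]
            · simp [h1, h2]
        simp only [e]
        rw [Finset.sum_add_distrib, Finset.sum_ite_eq' univ i, Finset.sum_ite_eq' univ j]
        simp
      have hm := hcg.merge ε hεs i hεi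
      set p' : Fin (d + 1) → V :=
        fun l => if l = i then ∑ t, ε t • p t else if ε l ≠ 0 then 0 else p l with hp'
      apply ih p' _ _ ⟨j, _⟩ hm
      · -- cardinality
        have hsub : univ.filter (fun l => p' l ≠ 0) ⊆ (univ.filter (fun l => p l ≠ 0)).erase j := by
          intro l hl
          simp only [Finset.mem_filter, Finset.mem_univ, true_and] at hl
          simp only [Finset.mem_erase, Finset.mem_filter, Finset.mem_univ, true_and]
          by_cases h1 : l = i
          · subst h1
            exact ⟨hij, hi⟩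
          · simp only [hp'] at hl
            rw [if_neg h1] at hl
            by_cases h2 : ε l ≠ 0
            · rw [if_pos h2] at hl
              exact absurd rfl hl
            · rw [if_neg h2] at hl
              refine ⟨?_, hl⟩
              intro h3
              subst h3
              exact h2 hεj
        have hmem : j ∈ univ.filter (fun l => p l ≠ 0) := by simp [hj]
        have h1 := Finset.card_le_card hsub
        rw [Finset.card_erase_of_mem hmem] at h1
        have := Finset.card_pos.mpr ⟨j, hmem⟩
        omega
      · intro l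
        simp only [hp']
        split_ifs
        · rw [hsum]; exact hle
        · simp
        · exact hp l
      · simp only [hp']
        rw [if_neg (Ne.symm hij), if_pos hεj]

lemma State.zero (d : ℕ) (v : ℕ → V) : State d v 0 := by
  refine ⟨fun _ => 0, fun _ => by simp, ⟨0, rfl⟩, ?_⟩
  intro η _
  refine ⟨fun _ => 1, fun _ => Or.inl rfl, by simp [P], ?_⟩
  intro j hj
  have : j = 0 := by omega
  subst this
  simp only [P, Finset.range_zero, Finset.sum_empty, norm_zero]
  have : (0 : ℝ) ≤ (d : ℝ) := Nat.cast_nonneg d
  have h2 : (0 : ℝ) ≤ (d : ℝ) * (d + 1) / 2 := by positivity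
  simpa using h2

open scoped Classical in
lemma State.step (d : ℕ) (hd1 : 1 ≤ d) (hd : d ≤ 4) (v : ℕ → EuclideanSpace ℝ (Fin d)) (k : ℕ)
    (hv : ‖v k‖ ≤ 1) (h : State d v k) : State d v (k + 1) := by
  obtain ⟨p, hp, ⟨j1, hj1⟩, hgood⟩ := h
  set q : Fin (d + 1) → EuclideanSpace ℝ (Fin d) := Function.update p j1 (v k) with hq
  have hq1 : ∀ j, ‖q j‖ ≤ 1 := by
    intro j
    by_cases hj : j = j1
    · subst hj
      rw [hq, Function.update_self]
      exact hv
    · rw [hq, Function.update_of_ne hj]
      exact hp j
  have hsum : ∀ η : Fin (d + 1) → ℝ, ∑ j, η j • q j = ∑ j, η j • p j + η j1 • v k := by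
    intro η
    have e : ∀ j, η j • q j = η j • p j + (if j = j1 then η j1 • v k else 0) := by
      intro j
      by_cases hj : j = j1
      · subst hj
        rw [hq, Function.update_self, hj1]
        simp
      · rw [hq, Function.update_of_ne hj, if_neg hj, add_zero]
    simp only [e]
    rw [Finset.sum_add_distrib, Finset.sum_ite_eq' univ j1]
    simp
  have hcg : CG ((d : ℝ) * (d + 1) / 2) v (k + 1) q := by
    intro η hη hn
    rw [hsum η] at hn ⊢
    exact (hgood η hη).step (η j1) (hη j1) hn
  obtain ⟨ε, hε, ⟨j0, j2, hne, h0, h2⟩, hle⟩ := reducible d hd1 hd q hq1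
  have hm := hcg.merge ε hε j0 h0
  apply finish d v (k + 1) _ _ le_rfl _ ⟨j2, _⟩ hm
  · intro l
    split_ifs
    · exact hle
    · simp
    · exact hq1 l
  · rw [if_neg (Ne.symm hne), if_pos h2]

lemma State.all (d : ℕ) (hd1 : 1 ≤ d) (hd : d ≤ 4) (v : ℕ → EuclideanSpace ℝ (Fin d))
    (hv : ∀ k, ‖v k‖ ≤ 1) (k : ℕ) : State d v k := by
  induction k with
  | zero => exact State.zero d v
  | succ k ih => exact State.step d hd1 hd v k (hv k) ih

end Vale.Agent.P262
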